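import Vale.Agent.N124.Asm
import Vale.Agent.N124.L1
import Vale.Agent.N124.Mil
import Vale.Agent.N124.Woj
import Vale.Agent.N124.GurEx
import Vale.Agent.N124.Sep4

/-!
P124: the Gurarii space and `C[0,1]` are Lipschitz isomorphic but not linearly isomorphic. A
separable `L₁`-predual is Lipschitz isomorphic to `C[0,1]` if and only if its dual is not separable.
-/

open TopologicalSpace N124

theorem Vale.Agent.Results.P124.A0Gurarii.result :
    -- (1) the Gurarii space and `C[0,1]`
    (∃ (G : Type) (_ : NormedAddCommGroup G) (_ : NormedSpace ℝ G),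
      CompleteSpace G ∧ SeparableSpace G ∧ IsGurarii G) ∧
    (∀ (G : Type) [NormedAddCommGroup G] [NormedSpace ℝ G] [CompleteSpace G] [SeparableSpace G],
      IsGurarii G →
        LipIso G C(unitInterval, ℝ) ∧
        (¬ ∃ T : G →L[ℝ] C(unitInterval, ℝ), Function.Bijective T) ∧
        ∀ (K : Type) [TopologicalSpace K] [CompactSpace K], ¬ Complemented G C(K, ℝ)) ∧
    -- (2) separable `L₁`-preduals
    (∀ (X : Type) [NormedAddCommGroup X] [NormedSpace ℝ X] [CompleteSpace X] [SeparableSpace X],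
      IsL1Predual X ∨ BallsMeet X →
        (LipIso X C(unitInterval, ℝ) ↔ ¬ SeparableSpace (StrongDual ℝ X)) ∧
        LipIso (X × C(unitInterval, ℝ)) C(unitInterval, ℝ)) := by
  have hG : ∀ (G : Type) [NormedAddCommGroup G] [NormedSpace ℝ G] [CompleteSpace G]
      [SeparableSpace G], IsGurarii G → LipIso G C(unitInterval, ℝ) ∧
        (¬ ∃ T : G →L[ℝ] C(unitInterval, ℝ), Function.Bijective T) ∧
        ∀ (K : Type) [TopologicalSpace K] [CompactSpace K], ¬ Complemented G C(K, ℝ) := by
    intro G _ _ _ _ h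
    obtain ⟨h1, h2⟩ := gurarii mil gurBall woj G h
    refine ⟨h1, ?_, h2⟩
    rintro ⟨T, hT⟩
    let e := ContinuousLinearEquiv.ofBijective T (LinearMap.ker_eq_bot.2 hT.1)
      (LinearMap.range_eq_top.2 hT.2)
    exact h2 unitInterval ⟨e, e.symm, e.symm_apply_apply⟩
  refine ⟨gurEx, hG, fun X _ _ _ _ h => ?_⟩
  have hX : ABall X := h.elim (l1 X) BallsMeet.aball
  exact ⟨⟨fun h1 h2 => dual_I (sep_dual4 X _ h1 h2), classify mil X hX⟩, absorb_I mil X hX⟩
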