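import Vale.Agent.N124B.Main

open TopologicalSpace N124B
open scoped ENNReal

/-- (1) A Lipschitz copy of `C[0,1]` that stays linearly different after adding a classical
space; (2) and after taking `ℓₚ`-sums; (3) a complex pair. -/
theorem Vale.Agent.Results.P124.A0StablePairs.result :
    (∃ (X : Type) (_ : NormedAddCommGroup X) (_ : NormedSpace ℝ X),
      CompleteSpace X ∧ SeparableSpace X ∧
      (∀ (W V K : Type) [NormedAddCommGroup W] [NormedSpace ℝ W] [NormedAddCommGroup V]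
        [NormedSpace ℝ V] [TopologicalSpace K] [CompactSpace K], NoC0 V → Compl W (V × C(K, ℝ)) →
        BiLip (W × X) (W × C(unitInterval, ℝ)) ∧ ¬ Compl (W × X) (W × C(unitInterval, ℝ))) ∧
      ∀ (p : ℝ≥0∞) [Fact (1 ≤ p)], p ≠ ⊤ →
        BiLip (lp (fun _ : ℕ => X) p) (lp (fun _ : ℕ => C(unitInterval, ℝ)) p) ∧
        ¬ Compl (lp (fun _ : ℕ => X) p) (lp (fun _ : ℕ => C(unitInterval, ℝ)) p)) ∧
    ∃ (Z : Type) (_ : NormedAddCommGroup Z) (_ : NormedSpace ℂ Z),
      CompleteSpace Z ∧ SeparableSpace Z ∧ BiLip Z C(unitInterval, ℂ) ∧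
      IsEmpty (Z ≃ₜ+ C(unitInterval, ℂ)) :=
  ⟨⟨XX, inferInstance, inferInstance, inferInstance, sepXX,
    fun W V K _ _ _ _ _ _ hV h => ⟨biLip_of (leXX.prod W), sums W V K hV h⟩,
    fun p _ hp => ⟨biLip_of (LE_lp p leXX), lps p hp⟩⟩, cplx⟩
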